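import Vale.Agent.P181.R2.H959.AllY

/-! P181 [QL] row Q4: the second row is `≥ a ^ 2 X ^ 2`. -/

set_option autoImplicit false

namespace Vale.Agent.P181.Z.H59F

open Vale.Agent.P181 Vale.Agent.P181.H280

/-- `Nat.log 2 b + 1 ≤ 4 (1 + log a)` if `b ≤ a ^ 2`. -/
theorem natlog_le {a b : ℕ} (ha : 1 ≤ a) (hb : b ≤ a ^ 2) :
    ((Nat.log 2 b + 1 : ℕ) : ℝ) ≤ 4 * (1 + Real.log a) := by
  have ha' : (1 : ℝ) ≤ a := by exact_mod_cast ha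
  have hla : 0 ≤ Real.log (a : ℝ) := Real.log_nonneg ha'
  have h2 : (1 / 2 : ℝ) ≤ Real.log 2 := by
    have := Real.log_two_gt_d9
    linarith
  rcases Nat.eq_zero_or_pos b with h0 | h0
  · subst h0
    simp
    linarith
  have h1 : 2 ^ Nat.log 2 b ≤ b := Nat.pow_log_le_self 2 h0.ne'
  have h3 : ((2 : ℝ)) ^ Nat.log 2 b ≤ (a : ℝ) ^ 2 := by exact_mod_cast h1.trans hb
  have h4 := Real.log_le_log (by positivity) h3
  rw [Real.log_pow, Real.log_pow] at h4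
  push_cast at h4 ⊢
  have h5 : (Nat.log 2 b : ℝ) * (1 / 2) ≤ (Nat.log 2 b : ℝ) * Real.log 2 :=
    mul_le_mul_of_nonneg_left h2 (Nat.cast_nonneg _)
  linarith

/-- Foulkes' inequality if `λ_2 ≥ a ^ 2 X ^ 2`, `b ≥ a X ^ 3`, `X ≥ C (1 + log a)`. -/
theorem first (n : ℕ) : ∃ c1 : ℝ, 1 ≤ c1 ∧ ∀ a : ℕ, 1 ≤ a → ∀ X : ℝ,
    c1 * (1 + Real.log a) ≤ X → ∀ b : ℕ, (a : ℝ) * X ^ 3 ≤ b → b ≤ a ^ 2 →
    ∀ lam : Fin (n + 3) → ℕ, (a : ℝ) ^ 2 * X ^ 2 ≤ lam 1 →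
    plethMult a b (n + 3) lam ≤ plethMult b a (n + 3) lam := by
  obtain ⟨C, hC⟩ := FR.all_wide_log n
  refine ⟨max 4 C, le_trans (by norm_num) (le_max_left _ _), fun a ha X hX b hb hb2 lam hl => ?_⟩
  have ha' : (1 : ℝ) ≤ a := by exact_mod_cast ha
  have hla : 0 ≤ Real.log (a : ℝ) := Real.log_nonneg ha'
  set L : ℕ := Nat.log 2 b + 1 with hLdef
  have hL1 : 1 ≤ L := by omega
  have hbL : b < 2 ^ L := Nat.lt_pow_succ_log_self (by norm_num) b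
  have hLX : (L : ℝ) ≤ X := by
    refine (natlog_le ha hb2).trans (le_trans ?_ hX)
    exact mul_le_mul_of_nonneg_right (le_max_left _ _) (by linarith)
  have hCX : (C : ℝ) ≤ X := by
    refine le_trans (le_max_right (4 : ℝ) _) (le_trans ?_ hX)
    have h0 : (0 : ℝ) ≤ max 4 (C : ℝ) := le_trans (by norm_num) (le_max_left _ _)
    nlinarith
  have hL0 : (0 : ℝ) ≤ L := Nat.cast_nonneg _
  have hX0 : (0 : ℝ) ≤ X := hL0.trans hLX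
  have hC0 : (0 : ℝ) ≤ C := Nat.cast_nonneg _
  have hX1 : (1 : ℝ) ≤ X := le_trans (by exact_mod_cast hL1) hLX
  refine hC a b L lam hL1 hbL ?_ ?_
  · have h1 : ((C * (a * L ^ 2) : ℕ) : ℝ) ≤ (b : ℝ) := by
      push_cast
      calc (C : ℝ) * (a * L ^ 2) ≤ X * (a * X ^ 2) := by gcongr
        _ = a * X ^ 3 := by ring
        _ ≤ b := hb
    exact_mod_cast h1
  · have h1 : ((C * (a ^ (3 * n + 4) * L ^ (3 * n + 3)) : ℕ) : ℝ) ≤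
        ((b ^ (n + 2) * lam 1 ^ (n + 1) : ℕ) : ℝ) := by
      push_cast
      calc (C : ℝ) * ((a : ℝ) ^ (3 * n + 4) * L ^ (3 * n + 3))
          ≤ X * ((a : ℝ) ^ (3 * n + 4) * X ^ (3 * n + 3)) := by gcongr
        _ = (a : ℝ) ^ (3 * n + 4) * X ^ (3 * n + 4) := by ring
        _ ≤ (a : ℝ) ^ (3 * n + 4) * X ^ (5 * n + 8) :=
            mul_le_mul_of_nonneg_left (pow_le_pow_right₀ hX1 (by omega)) (by positivity)
        _ = ((a : ℝ) * X ^ 3) ^ (n + 2) * ((a : ℝ) ^ 2 * X ^ 2) ^ (n + 1) := by ring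
        _ ≤ (b : ℝ) ^ (n + 2) * (lam 1 : ℝ) ^ (n + 1) := by gcongr
    exact_mod_cast h1

/-- 503's form. -/
theorem firstZ (n : ℕ) : ∃ (p : ℕ) (c1 : ℝ) (a0 : ℕ), 1 ≤ c1 ∧ ∀ a, a0 ≤ a → ∀ X : ℝ,
    c1 * (1 + Real.log a) ≤ X → X ^ p ≤ a → ∀ b : ℕ, (a : ℝ) * X ^ p ≤ b → b ≤ a ^ 2 →
    ∀ lam : Fin (n + 3) → ℕ, Antitone lam → (∀ i, 0 < lam i) → ∑ i, lam i = b * a →
    (a : ℝ) ^ 2 * X ^ 2 ≤ lam 1 →
    plethMult a b (n + 3) lam ≤ plethMult b a (n + 3) lam := by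
  obtain ⟨c1, h1, h⟩ := first n
  exact ⟨3, c1, 1, h1, fun a ha X hX _ b hb hb2 lam _ _ _ hl => h a ha X hX b hb hb2 lam hl⟩

end Vale.Agent.P181.Z.H59F
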