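import Vale.Agent.P181.Z.H483.Core
import Vale.Agent.P181.H921.ZNp
import Vale.Agent.P181.H921.ZS1
import Vale.Agent.P181.H699.Reg

/-! # The numbers of the analysis half, for a given point -/

open Real Finset Filter

namespace Vale.Agent.P181.Z.H59

open Vale.Agent.P181.Z.H582 Vale.Agent.P181.Z.H483 Vale.Agent.P181.H921.Z

theorem ev_rpow (K p q : ℝ) (hpq : p < q) : ∀ᶠ A : ℝ in atTop, K * A ^ p ≤ A ^ q := by
  have h1 : Tendsto (fun A : ℝ => A ^ (q - p)) atTop atTop := tendsto_rpow_atTop (by linarith)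
  filter_upwards [h1.eventually_ge_atTop K, eventually_gt_atTop 0] with A hA hA0
  have h2 : A ^ q = A ^ (q - p) * A ^ p := by
    rw [← Real.rpow_add hA0]; congr 1; ring
  rw [h2]
  have := (Real.rpow_pos_of_pos hA0 p).le
  gcongr

/-- logarithms against powers -/
theorem ev_log (K K' p q r : ℝ) (hr : 0 < r) (hpq : p + r < q) (hK' : 0 ≤ K') :
    ∀ᶠ A : ℝ in atTop, A ^ p * (K + K' * log A) ≤ A ^ q := by
  filter_upwards [ev_rpow (|K| + K' * (1 / r)) (p + r) q hpq, eventually_ge_atTop 1] with A hA hA1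
  have h0 : 0 < A := by linarith
  have h1 : log A ≤ A ^ r / r := Real.log_le_rpow_div h0.le hr
  have h2 : 1 ≤ A ^ r := Real.one_le_rpow hA1 hr.le
  have h3 : K + K' * log A ≤ (|K| + K' * (1 / r)) * A ^ r := by
    have h4 : K' * log A ≤ K' * (A ^ r / r) := mul_le_mul_of_nonneg_left h1 hK'
    have h5 : K ≤ |K| * A ^ r := (le_abs_self K).trans (le_mul_of_one_le_right (abs_nonneg K) h2)
    have h6 : K' * (A ^ r / r) = K' * (1 / r) * A ^ r := by ring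
    rw [add_mul]
    linarith
  calc A ^ p * (K + K' * log A) ≤ A ^ p * ((|K| + K' * (1 / r)) * A ^ r) :=
        mul_le_mul_of_nonneg_left h3 (Real.rpow_pos_of_pos h0 p).le
    _ = (|K| + K' * (1 / r)) * A ^ (p + r) := by rw [Real.rpow_add h0]; ring
    _ ≤ A ^ q := hA

theorem nums (h : ℕ) (g C : ℝ) (hg : 0 < g) (hC : 1 ≤ C) : ∀ᶠ A : ℝ in atTop,
    2 ≤ A ∧
    C * A ^ (1 + g / 16) * (1 + 2 * h * (1 + log A)) ≤ A ^ (1 + g) / 64 ∧
    log 2 + 5 * (((h + 1) * (h + 1) + h : ℕ) : ℝ) * log A ≤ A ^ (g / 16) / (152 * C) ∧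
    64 * A ≤ A ^ (1 + g) ∧
    (5 * h + 1) * A ^ (1 / 2 + g / 8) ≤ A ^ (1 / 2 + 31 * g / 32) / (16 * C) := by
  have hh : (0 : ℝ) ≤ h := Nat.cast_nonneg h
  filter_upwards [eventually_ge_atTop 2,
    ev_log (64 * C * (1 + 2 * h)) (64 * C * (2 * h)) (1 + g / 16) (1 + g) (g / 2) (by positivity)
      (by linarith) (by positivity),
    ev_log (152 * C * log 2) (152 * C * (5 * (((h + 1) * (h + 1) + h : ℕ) : ℝ))) 0 (g / 16)
      (g / 32) (by positivity) (by linarith) (by positivity),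
    ev_rpow 64 1 (1 + g) (by linarith),
    ev_rpow ((5 * h + 1) * (16 * C)) (1 / 2 + g / 8) (1 / 2 + 31 * g / 32) (by linarith)]
    with A h1 h2 h3 h4 h5
  refine ⟨h1, ?_, ?_, ?_, ?_⟩
  · rw [le_div_iff₀ (by norm_num)]
    calc C * A ^ (1 + g / 16) * (1 + 2 * h * (1 + log A)) * 64
        = A ^ (1 + g / 16) * (64 * C * (1 + 2 * h) + 64 * C * (2 * h) * log A) := by ring
      _ ≤ _ := h2
  · rw [le_div_iff₀ (by positivity)]
    rw [Real.rpow_zero, one_mul] at h3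
    calc _ = 152 * C * log 2 + 152 * C * (5 * (((h + 1) * (h + 1) + h : ℕ) : ℝ)) * log A := by
          ring
      _ ≤ _ := h3
  · rw [Real.rpow_one] at h4; exact h4
  · rw [le_div_iff₀ (by positivity)]
    calc (5 * h + 1) * A ^ (1 / 2 + g / 8) * (16 * C)
        = (5 * h + 1) * (16 * C) * A ^ (1 / 2 + g / 8) := by ring
      _ ≤ _ := h5

theorem exp_sub_one_le {s : ℝ} (h0 : 0 ≤ s) (h1 : s ≤ 1 / 2) : exp s - 1 ≤ 2 * s := by
  have h2 : |exp s - 1| ≤ 2 * |s| := Real.abs_exp_sub_one_le (by rw [abs_of_nonneg h0]; linarith)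
  rw [abs_of_nonneg h0] at h2
  exact (le_abs_self _).trans h2

theorem lt_dotp {h : ℕ} {x : Fin h → ℝ} (hx : ∀ i, 0 < x i) (hmono : Monotone x)
    {v : Fin h → ℕ} {i j : Fin h} (hij : i ≤ j) (hv : v j ≠ 0) : x i / 2 < dotp x v := by
  have h1 := mul_le_dotp x hx v j
  have h2 : (1 : ℝ) ≤ v j := by exact_mod_cast Nat.one_le_iff_ne_zero.2 hv
  have h3 := hmono hij
  have h4 := hx i
  have h5 := hx j
  nlinarith

theorem truncNum (x0 S B : ℝ) (N : ℕ) (hx0 : 0 < x0) (hx1 : x0 ≤ 1) (hB0 : 0 < B)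
    (hS : S ≤ B / 64) (hN : B / 16 ≤ N) (h4 : 4 ≤ x0 * (B / 64)) :
    exp (-(x0 / 2) * (N + 1 : ℕ) + (exp (x0 / 2) - 1) * S) ≤ 1 / 4 := by
  have e1 : exp (x0 / 2) - 1 ≤ 2 * (x0 / 2) :=
    exp_sub_one_le (by positivity) (by linarith)
  have e0 : 0 ≤ exp (x0 / 2) - 1 := by
    have := Real.one_le_exp (show (0 : ℝ) ≤ x0 / 2 by positivity)
    linarith
  have e2 : (exp (x0 / 2) - 1) * S ≤ x0 * (B / 64) := by
    calc _ ≤ (exp (x0 / 2) - 1) * (B / 64) := mul_le_mul_of_nonneg_left hS e0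
      _ ≤ x0 * (B / 64) := by
          apply mul_le_mul_of_nonneg_right _ (by positivity)
          linarith
  have e4 : x0 / 2 * (B / 16) ≤ x0 / 2 * ((N + 1 : ℕ) : ℝ) := by
    apply mul_le_mul_of_nonneg_left _ (by positivity)
    push_cast
    linarith
  have e5 : -(x0 / 2) * (N + 1 : ℕ) + (exp (x0 / 2) - 1) * S ≤ -2 := by
    have e7 : x0 / 2 * (B / 16) = 2 * (x0 * (B / 64)) := by ring
    have e8 : -(x0 / 2) * ((N + 1 : ℕ) : ℝ) = -(x0 / 2 * ((N + 1 : ℕ) : ℝ)) := by ring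
    rw [e8]
    linarith
  have e6 : exp (-2) ≤ 1 / 4 := by
    have h3 : exp (-2) = (exp 1)⁻¹ * (exp 1)⁻¹ := by
      rw [← Real.exp_neg, ← Real.exp_add]; norm_num
    have h4 : (2 : ℝ) ≤ exp 1 := by
      have := Real.add_one_le_exp (1 : ℝ)
      linarith
    have h5 : (exp 1)⁻¹ ≤ 2⁻¹ := inv_anti₀ (by norm_num) h4
    have h6 : 0 ≤ (exp 1)⁻¹ := (inv_pos.2 (exp_pos 1)).le
    rw [h3]
    nlinarith
  exact (Real.exp_le_exp.2 e5).trans e6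

theorem logNum (h a N : ℕ) (A E : ℝ) (hA : (a : ℝ) = A) (hA2 : 2 ≤ A) (hN3 : (N : ℝ) ≤ A ^ 3)
    (n2 : log 2 + 5 * (((h + 1) * (h + 1) + h : ℕ) : ℝ) * log A ≤ E) :
    log (2 * ((N * a + 1 : ℕ) : ℝ) ^ ((h + 1) * (h + 1)) * ((N * a + 1 : ℕ) : ℝ) ^ h) ≤ E := by
  have hNa1 : (1 : ℝ) ≤ ((N * a + 1 : ℕ) : ℝ) := by
    push_cast
    have : 0 ≤ (N : ℝ) * a := by positivity
    linarith
  have h3 : log (2 * ((N * a + 1 : ℕ) : ℝ) ^ ((h + 1) * (h + 1)) * ((N * a + 1 : ℕ) : ℝ) ^ h) =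
      log 2 + (((h + 1) * (h + 1) + h : ℕ) : ℝ) * log ((N * a + 1 : ℕ) : ℝ) := by
    rw [mul_assoc, ← pow_add, Real.log_mul (by norm_num) (by positivity), Real.log_pow]
  have h4 : ((N * a + 1 : ℕ) : ℝ) ≤ A ^ 5 := by
    push_cast
    rw [hA]
    have h5 : (N : ℝ) * A ≤ A ^ 4 := by
      calc (N : ℝ) * A ≤ A ^ 3 * A := mul_le_mul_of_nonneg_right hN3 (by linarith)
        _ = A ^ 4 := by ring
    have h6 : (1 : ℝ) ≤ A ^ 4 := one_le_pow₀ (by linarith)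
    have h7 : A ^ 4 * 2 ≤ A ^ 4 * A := mul_le_mul_of_nonneg_left hA2 (by positivity)
    have h8 : A ^ 4 * A = A ^ 5 := by ring
    linarith
  have h5 : log ((N * a + 1 : ℕ) : ℝ) ≤ 5 * log A := by
    have h6 := Real.log_le_log (by linarith) h4
    rw [Real.log_pow] at h6
    push_cast at h6 ⊢
    exact h6
  rw [h3]
  refine le_trans ?_ n2
  have h6 : (0 : ℝ) ≤ (((h + 1) * (h + 1) + h : ℕ) : ℝ) := Nat.cast_nonneg _
  have h7 := mul_le_mul_of_nonneg_left h5 h6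
  linarith

theorem windowNum (A C g W nnx : ℝ) (hA : 1 ≤ A) (hC : 1 ≤ C) (hW0 : 0 < W)
    (hW : log W ≤ A ^ (g / 16) / (152 * C)) (hnn : nnx ≤ C * A ^ (1 + g / 16)) :
    0 ≤ (76 * C * A ^ (1 / 2 : ℝ))⁻¹ ∧ (76 * C * A ^ (1 / 2 : ℝ))⁻¹ ≤ 1 / 4 ∧
    W * exp (-((76 * C * A ^ (1 / 2 : ℝ))⁻¹ * A ^ (1 / 2 + g / 16)) +
      38 * ((76 * C * A ^ (1 / 2 : ℝ))⁻¹) ^ 2 * nnx) ≤ 1 := by
  have hA0 : 0 < A := by linarith
  have hs0 : (1 : ℝ) ≤ A ^ (1 / 2 : ℝ) := Real.one_le_rpow hA (by norm_num)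
  have hs00 : (0 : ℝ) < A ^ (1 / 2 : ℝ) := by linarith
  have hC0 : 0 < C := by linarith
  refine ⟨by positivity, ?_, ?_⟩
  · rw [one_div (4 : ℝ)]
    apply inv_anti₀ (by norm_num)
    nlinarith
  · have hyD : (76 * C * A ^ (1 / 2 : ℝ))⁻¹ * A ^ (1 / 2 + g / 16) = A ^ (g / 16) / (76 * C) := by
      rw [Real.rpow_add hA0]
      field_simp
    have h4 : 38 * ((76 * C * A ^ (1 / 2 : ℝ))⁻¹) ^ 2 * nnx ≤ A ^ (g / 16) / (152 * C) := by
      refine (mul_le_mul_of_nonneg_left hnn (by positivity)).trans (le_of_eq ?_)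
      have h3 : A ^ (1 + g / 16) = A ^ (1 / 2 : ℝ) * A ^ (1 / 2 : ℝ) * A ^ (g / 16) := by
        rw [← Real.rpow_add hA0, ← Real.rpow_add hA0]
        congr 1; ring
      rw [h3]
      field_simp
      norm_num
    have h3 : W = exp (log W) := by rw [Real.exp_log hW0]
    have h5 : A ^ (g / 16) / (76 * C) = 2 * (A ^ (g / 16) / (152 * C)) := by
      field_simp
      norm_num
    rw [h3, ← Real.exp_add, Real.exp_le_one_iff, hyD]
    linarith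

theorem compNum (h : ℕ) (A C g x1 t dl S lW cs D : ℝ) (hA : 1 ≤ A) (hg : 0 < g) (hC : 1 ≤ C)
    (hx : 0 < x1) (hx1 : x1 ≤ 1) (hx1Q : 2 ≤ C * A ^ (1 / 2 + g / 32) * x1)
    (ht : A ^ (1 + g) / 4 ≤ t) (hS : S ≤ A ^ (1 + g) / 64)
    (hdl : dl ≤ 2 * A * x1) (hcs : cs ≤ h * (4 * A ^ (1 / 2 + g / 8)))
    (hD : D = A ^ (1 / 2 + g / 16)) (hlW : lW ≤ A ^ (g / 16) / (152 * C))
    (n3 : 64 * A ≤ A ^ (1 + g))
    (n4 : (5 * h + 1) * A ^ (1 / 2 + g / 8) ≤ A ^ (1 / 2 + 31 * g / 32) / (16 * C)) :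
    dl + cs + h * D + lW + (exp (x1 / 2) - 1) * S ≤ x1 / 2 * t := by
  have hA0 : 0 < A := by linarith
  have hC0 : 0 < C := by linarith
  have hh0 : (0 : ℝ) ≤ h := Nat.cast_nonneg h
  have hB0 : 0 < A ^ (1 + g) := by positivity
  have e1 : exp (x1 / 2) - 1 ≤ 2 * (x1 / 2) :=
    exp_sub_one_le (by positivity) (by linarith)
  have e0 : 0 ≤ exp (x1 / 2) - 1 := by
    have := Real.one_le_exp (show (0 : ℝ) ≤ x1 / 2 by positivity)
    linarith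
  have e2 : (exp (x1 / 2) - 1) * S ≤ x1 * (A ^ (1 + g) / 64) := by
    calc _ ≤ (exp (x1 / 2) - 1) * (A ^ (1 + g) / 64) := mul_le_mul_of_nonneg_left hS e0
      _ ≤ x1 * (A ^ (1 + g) / 64) := by
          apply mul_le_mul_of_nonneg_right _ (by positivity)
          linarith
  have e3 : dl ≤ x1 * (A ^ (1 + g) / 32) := by
    have h4 : 64 * A * x1 ≤ A ^ (1 + g) * x1 := mul_le_mul_of_nonneg_right n3 hx.le
    linarith
  have e5 : D ≤ A ^ (1 / 2 + g / 8) := by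
    rw [hD]
    exact Real.rpow_le_rpow_of_exponent_le hA (by linarith)
  have e6 : A ^ (g / 16) / (152 * C) ≤ A ^ (1 / 2 + g / 8) := by
    have h3 : A ^ (g / 16) ≤ A ^ (1 / 2 + g / 8) :=
      Real.rpow_le_rpow_of_exponent_le hA (by linarith)
    have h4 : A ^ (g / 16) / (152 * C) ≤ A ^ (g / 16) :=
      div_le_self (by positivity) (by linarith)
    linarith
  have e7 : A ^ (1 / 2 + 31 * g / 32) / (16 * C) ≤ x1 * (A ^ (1 + g) / 32) := by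
    have h3 : A ^ (1 + g) = A ^ (1 / 2 + g / 32) * A ^ (1 / 2 + 31 * g / 32) := by
      rw [← Real.rpow_add hA0]
      congr 1; ring
    rw [div_le_iff₀ (by positivity), h3]
    have h4 : 0 < A ^ (1 / 2 + 31 * g / 32) := by positivity
    have h5 := mul_le_mul_of_nonneg_right hx1Q h4.le
    linarith
  have e8 : (h : ℝ) * D ≤ h * A ^ (1 / 2 + g / 8) := mul_le_mul_of_nonneg_left e5 hh0
  have e9 : x1 / 2 * (A ^ (1 + g) / 4) ≤ x1 / 2 * t := mul_le_mul_of_nonneg_left ht (by positivity)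
  have e10 : 0 < x1 * A ^ (1 + g) := by positivity
  have e11 : cs + h * D + lW ≤ x1 * (A ^ (1 + g) / 32) := by
    refine le_trans ?_ (n4.trans e7)
    linarith
  linarith

theorem pointNum {h : ℕ} (hh : 1 < h) (A C g : ℝ) (hA : 1 ≤ A) (hC : 1 ≤ C) (x : Fin h → ℝ)
    (hx : ∀ i, 0 < x i) (hx1 : x ⟨1, hh⟩ ≤ 1) (h01 : x ⟨0, by omega⟩ ≤ x ⟨1, hh⟩)
    (hnp : ∏ i, (1 - exp (-(x i / 2)))⁻¹ ≤ C * A ^ (1 + g / 16)) :
    4 ≤ C * A ^ (1 + g / 16) * x ⟨0, by omega⟩ ∧ 2 ≤ C * A ^ (1 / 2 + g / 32) * x ⟨1, hh⟩ := by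
  have hA0 : 0 < A := by linarith
  have hC0 : 0 < C := by linarith
  obtain ⟨x0, hx0e⟩ : ∃ x0, x0 = x ⟨0, by omega⟩ := ⟨_, rfl⟩
  obtain ⟨x1, hx1e⟩ : ∃ x1, x1 = x ⟨1, hh⟩ := ⟨_, rfl⟩
  have hx0 : 0 < x0 := hx0e ▸ hx _
  have hx1' : 0 < x1 := hx1e ▸ hx _
  have hnp2 : 1 / ((x ⟨0, by omega⟩ / 2) * (x ⟨1, hh⟩ / 2)) ≤ ∏ i, (1 - exp (-(x i / 2)))⁻¹ :=
    Vale.Agent.P181.H699.Rg.NN_two (x := fun i => x i / 2) (fun i => by
      have := hx i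
      positivity) (i := ⟨0, by omega⟩) (j := ⟨1, hh⟩) (by simp)
  rw [← hx0e, ← hx1e] at hnp2
  rw [← hx0e, ← hx1e] at h01
  rw [← hx1e] at hx1
  rw [← hx0e, ← hx1e]
  have hQ0 : 0 < C * A ^ (1 + g / 16) := by positivity
  have hprod : 4 ≤ C * A ^ (1 + g / 16) * (x0 * x1) := by
    have h3 := hnp2.trans hnp
    rw [div_le_iff₀ (by positivity)] at h3
    nlinarith
  constructor
  · have h3 : C * A ^ (1 + g / 16) * (x0 * x1) ≤ C * A ^ (1 + g / 16) * x0 := by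
      have : x0 * x1 ≤ x0 := mul_le_of_le_one_right hx0.le hx1
      exact mul_le_mul_of_nonneg_left this hQ0.le
    linarith
  · have h3 : 4 ≤ C * A ^ (1 + g / 16) * (x1 * x1) := hprod.trans (by gcongr)
    have h4 : C * A ^ (1 + g / 16) ≤ (C * A ^ (1 / 2 + g / 32)) ^ 2 := by
      rw [mul_pow, ← Real.rpow_natCast (A ^ (1 / 2 + g / 32)), ← Real.rpow_mul hA0.le]
      have h5 : (1 / 2 + g / 32) * ((2 : ℕ) : ℝ) = 1 + g / 16 := by push_cast; ring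
      rw [h5]
      have h6 : C ≤ C ^ 2 := by nlinarith
      gcongr
    have h7 : (2 : ℝ) ^ 2 ≤ (C * A ^ (1 / 2 + g / 32) * x1) ^ 2 := by
      rw [mul_pow (C * A ^ (1 / 2 + g / 32))]
      have h8 : C * A ^ (1 + g / 16) * (x1 * x1) ≤ (C * A ^ (1 / 2 + g / 32)) ^ 2 * x1 ^ 2 := by
        rw [pow_two x1]
        gcongr
      linarith
    exact le_of_sq_le_sq h7 (by positivity)

/-- **Everything after the point is given.** -/
theorem cmpx (h : ℕ) (hh : 1 < h) (g C : ℝ) (hg : 0 < g) (hC : 1 ≤ C) :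
    ∃ a0 : ℕ, ∀ a : ℕ, a0 ≤ a → ∀ t N : ℕ, (a : ℝ) ^ (1 + g) / 4 ≤ t →
      (a : ℝ) ^ (1 + g) / 16 ≤ N → (N : ℝ) ≤ (a : ℝ) ^ 3 →
      ∀ x : Fin h → ℝ, (∀ i, 0 < x i) → Monotone x → x ⟨1, hh⟩ ≤ 1 →
      ∏ i, (1 - exp (-(x i / 2)))⁻¹ ≤ C * (a : ℝ) ^ (1 + g / 16) →
      ∀ f : (Fin h → ℕ) → ℝ, (∀ θ, f θ ≤ cnt (Lt a h) N θ) →
      (∀ w, 0 < cnt (Lt a h) N w → ∃ θ : Fin h → ℕ,
        (∀ r : ℕ, ∑ i : Fin h, (if r ≤ (i : ℕ) then θ i else 0) ≤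
          ∑ i : Fin h, (if r ≤ (i : ℕ) then w i else 0)) ∧
        (cnt (Lt a h) N w : ℝ) ≤ ((N * a + 1 : ℕ) : ℝ) ^ ((h + 1) * (h + 1)) * f θ) →
      ∀ (lam : Fin h → ℕ) (kap c : Fin h → ℝ),
      (∀ i, (lam i : ℝ) ≤ mean (Lt a h) x i + kap i + c i / x i) →
      (∀ i, 0 ≤ c i ∧ c i ≤ 4 * (a : ℝ) ^ (1 / 2 + g / 8)) →
      ∑ i, x i * kap i ≤ 2 * a * x ⟨1, hh⟩ →
      ∀ (J : (Fin h → ℕ) → Prop) [DecidablePred J],
      (∀ v, J v → ∃ j : Fin h, 1 ≤ j.val ∧ v j ≠ 0) →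
      ∃ θ : Fin h → ℕ, (∀ i, |x i * θ i - x i * mean (Lt a h) x i| < (a : ℝ) ^ (1 / 2 + g / 16)) ∧
        ((NTs (Lt a h) J lam t).ncard : ℝ) ≤ f θ := by
  obtain ⟨a0, ha0⟩ :=
    (tendsto_natCast_atTop_atTop.eventually (nums h g C hg hC)).exists_forall_of_atTop
  refine ⟨a0, fun a ha t N ht hN hN3 x hx hmono hx1 hnp f h1 h2 lam kap c hlam hc hkap J _ hJ => ?_⟩
  obtain ⟨hA2, n1, n2, n3, n4⟩ := ha0 a ha
  have hA1 : 1 ≤ (a : ℝ) := by linarith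
  have hA0 : 0 < (a : ℝ) := by linarith
  have ha1 : 1 ≤ a := by exact_mod_cast hA1
  have hlog0 : 0 ≤ log (a : ℝ) := Real.log_nonneg hA1
  have hh0 : (0 : ℝ) ≤ h := Nat.cast_nonneg h
  have hLg1 : 1 ≤ 1 + 2 * (h : ℝ) * (1 + log a) := by nlinarith
  have hQ0 : 0 < C * (a : ℝ) ^ (1 + g / 16) := by positivity
  have hB0 : 0 < (a : ℝ) ^ (1 + g) := by positivity
  have h01 : x ⟨0, by omega⟩ ≤ x ⟨1, hh⟩ := hmono (Fin.mk_le_mk.2 (Nat.zero_le 1))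
  obtain ⟨p1, p2⟩ := pointNum hh a C g hA1 hC x hx hx1 h01 hnp
  obtain ⟨i0, hi0⟩ : ∃ i0 : Fin h, i0 = ⟨0, by omega⟩ := ⟨_, rfl⟩
  obtain ⟨i1, hi1⟩ : ∃ i1 : Fin h, i1 = ⟨1, hh⟩ := ⟨_, rfl⟩
  rw [← hi0, ← hi1] at h01
  rw [← hi0] at p1
  rw [← hi1] at p2 hx1 hkap
  have hx0 : 0 < x i0 := hx i0
  have hx1' : 0 < x i1 := hx i1
  have hle0 : ∀ j, i0 ≤ j := fun j => by rw [hi0]; exact Fin.mk_le_mk.2 (Nat.zero_le _)
  have hle1 : ∀ j : Fin h, 1 ≤ j.val → i1 ≤ j := fun j hj => by rw [hi1]; exact Fin.mk_le_mk.2 hj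
  -- the letters
  have hL0 : ∀ v ∈ Lt a h, v ≠ 0 := by
    intro v hv h0
    obtain ⟨i, hi⟩ := exists_ne_of_mem hv
    exact hi (by rw [h0]; rfl)
  have hLa : ∀ v ∈ Lt a h, ∀ i, v i ≤ a := fun v hv i =>
    (Finset.single_le_sum (f := v) (fun _ _ => Nat.zero_le _) (mem_univ i)).trans (mem_Lt.1 hv).2
  have hS0 : ∑ v ∈ Lt a h, exp (-dotp x v) / (1 - exp (x i0 / 2) * exp (-dotp x v)) ≤
      (a : ℝ) ^ (1 + g) / 64 := by
    have h3 := Vale.Agent.P181.H921.Z.s1 hx hLa i0 (J := fun _ => True) (fun v hv _ => by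
        obtain ⟨j, hj⟩ := exists_ne_of_mem hv
        exact ⟨j, hmono (hle0 j), hj⟩) (σ := x i0 / 2) le_rfl
    rw [Finset.filter_true] at h3
    exact h3.trans ((mul_le_mul_of_nonneg_right hnp (by linarith)).trans n1)
  have hS1 : ∑ v ∈ (Lt a h).filter J, exp (-dotp x v) / (1 - exp (x i1 / 2) * exp (-dotp x v)) ≤
      (a : ℝ) ^ (1 + g) / 64 := by
    have h3 := Vale.Agent.P181.H921.Z.s1 hx hLa i1 (J := J) (fun v hv hJv => by
        obtain ⟨j, hj1, hj⟩ := hJ v hJv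
        exact ⟨j, hmono (hle1 j hj1), hj⟩) (σ := x i1 / 2) le_rfl
    exact h3.trans ((mul_le_mul_of_nonneg_right hnp (by linarith)).trans n1)
  have hx0B : 4 ≤ x i0 * ((a : ℝ) ^ (1 + g) / 64) := by
    have h3 : C * (a : ℝ) ^ (1 + g / 16) ≤ (a : ℝ) ^ (1 + g) / 64 :=
      le_trans (le_mul_of_one_le_right hQ0.le hLg1) n1
    have h4 := mul_le_mul_of_nonneg_right h3 hx0.le
    linarith
  have hT := truncNum (x i0) _ _ N hx0 (h01.trans hx1) hB0 hS0 hN hx0B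
  -- the polynomial losses
  have hlogP := logNum h a N a _ rfl hA2 hN3 n2
  obtain ⟨P, hP⟩ : ∃ P : ℝ, P = ((N * a + 1 : ℕ) : ℝ) ^ ((h + 1) * (h + 1)) := ⟨_, rfl⟩
  obtain ⟨nW, hnW⟩ : ∃ P : ℝ, P = ((N * a + 1 : ℕ) : ℝ) ^ h := ⟨_, rfl⟩
  have hNa1 : (0 : ℝ) < ((N * a + 1 : ℕ) : ℝ) := by positivity
  have hP0 : 0 < P := by rw [hP]; positivity
  have hnW0 : 0 < nW := by rw [hnW]; positivity
  have hW : (((MF (Lt a h) N).image Multiset.sum).card : ℝ) ≤ nW := by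
    rw [hnW]; exact card_weights_le (Lt a h) a N hLa
  rw [← hP] at h2
  rw [← hP, ← hnW] at hlogP
  have hnn : nn (Lt a h) x ≤ C * (a : ℝ) ^ (1 + g / 16) := by
    refine le_trans ?_ hnp
    refine le_trans (le_of_eq ?_) (Vale.Agent.P181.H921.Z.sum_half_le hx hLa)
    unfold nn
    refine Finset.sum_congr rfl fun v _ => ?_
    rw [neg_div]
  obtain ⟨y0, y1, y2⟩ := windowNum a C g (2 * P * nW) (nn (Lt a h) x) hA1 hC (by positivity)
    hlogP hnn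
  -- the comparison
  have hxc : ∀ i, x i * (c i / x i) = c i := fun i => by
    have := (hx i).ne'
    field_simp
  have hdl : dotp x lam - ∑ i, x i * (mean (Lt a h) x i + c i / x i) ≤ 2 * a * x i1 := by
    have h3 : dotp x lam ≤ ∑ i, x i * (mean (Lt a h) x i + c i / x i) + ∑ i, x i * kap i := by
      unfold dotp
      rw [← Finset.sum_add_distrib]
      refine Finset.sum_le_sum fun i _ => ?_
      rw [← mul_add]
      apply mul_le_mul_of_nonneg_left _ (hx i).le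
      linarith [hlam i]
    linarith
  have hcs : ∑ i, c i ≤ h * (4 * (a : ℝ) ^ (1 / 2 + g / 8)) := by
    have h3 := Finset.sum_le_sum fun i (_ : i ∈ (univ : Finset (Fin h))) => (hc i).2
    rw [Finset.sum_const, Finset.card_univ, Fintype.card_fin, nsmul_eq_mul] at h3
    exact h3
  have hcomp := compNum h a C g (x i1) t _ _ _ _ _ hA1 hg hC hx1' hx1 p2 ht hS1 hdl hcs rfl
    hlogP n3 n4
  obtain ⟨θ, hθ, hF⟩ := core_x (Lt a h) hL0 x hx hmono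
    (fun i => mean (Lt a h) x i + c i / x i) c (fun i => by ring) N f P hP0 h1 h2 _ _ y0 y1
    (x i0 / 2) (by positivity) (fun v hv => by
      obtain ⟨j, hj⟩ := exists_ne_of_mem hv
      exact lt_dotp hx hmono (hle0 j) hj)
    hT nW hnW0 hW y2 J (x i1 / 2) (by positivity)
    (fun v _ hJv => by
      obtain ⟨j, hj1, hj⟩ := hJ v hJv
      exact lt_dotp hx hmono (hle1 j hj1) hj) lam t hcomp
  refine ⟨θ, fun i => ?_, hF⟩
  have h3 := hθ i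
  have h4 : x i * (mean (Lt a h) x i + c i / x i - θ i) - c i =
      -(x i * θ i - x i * mean (Lt a h) x i) := by
    have := hxc i
    linear_combination this
  rw [h4, abs_neg] at h3
  exact h3

end Vale.Agent.P181.Z.H59
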